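import Vale.Agent.P321.Super.Main

/-! Worst-case trace reconstruction needs superpolynomially many traces at every fixed deletion
probability. -/

namespace Vale.Agent.Results.P321.Superpolynomial

open Vale.Agent.P321

theorem result : ∀ q : ℝ, 0 < q → q < 1 →
    ∀ A : ℕ, ∃ n0 : ℕ, ∀ n : ℕ, n0 ≤ n → ∀ m : ℕ,
    ∀ est : (Fin m → List Bool) → (Fin n → Bool) → ℝ, (∀ T y, 0 ≤ est T y) →
    (∀ T, ∑ y, est T y = 1) →
    (∀ x : Fin n → Bool, 2 / 3 ≤ ∑ T ∈ Fintype.piFinset (fun _ : Fin m => traces n),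
      (∏ i, traceProb q (List.ofFn x) (T i)) * est T x) →
    n ^ A ≤ m :=
  Super.superpolynomial

end Vale.Agent.Results.P321.Superpolynomial
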